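import Vale.Agent.P052.R2.H632.Simplex

open Metric Set
open scoped InnerProductSpace

namespace Vale.Agent.P052.H632

variable {E : Type*} [NormedAddCommGroup E] [InnerProductSpace ℝ E] [FiniteDimensional ℝ E]

/-- The vectors of a regular simplex in a subspace. -/
theorem simplex_vectors (V : Submodule ℝ E) {a : ℕ} (ha : Module.finrank ℝ V = a) :
    ∃ u : Fin (a + 1) → E, (∀ i, u i ∈ V) ∧ (∀ i, ‖u i‖ ≤ 1) ∧
      ∀ v ∈ V, ∃ i, ‖v‖ / (a + 1) ≤ ⟪u i, v⟫_ℝ := by
  obtain ⟨L, hL⟩ := exists_simplex_coords V ha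
  -- surjective onto sum-zero vectors, by dimension: use the adjoint instead
  let e : Fin (a + 1) → EuclideanSpace ℝ (Fin (a + 1)) := fun i => EuclideanSpace.single i 1
  let A := L.toContinuousLinearMap.adjoint
  have hA : ∀ i (v : V), ⟪A (e i), v⟫_ℝ = L v i := by
    intro i v
    rw [ContinuousLinearMap.adjoint_inner_left]
    show ⟪e i, L v⟫_ℝ = _
    rw [EuclideanSpace.inner_single_left]
    simp
  have key : ∀ v : V, ∃ i, ‖v‖ / (a + 1) ≤ L v i := by
    intro v
    by_contra hc
    push Not at hc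
    set β := ‖v‖ / ((a : ℝ) + 1) with hβ
    have ha0 : (0 : ℝ) < (a : ℝ) + 1 := by positivity
    have hβ0 : 0 ≤ β := by positivity
    have hv : ‖v‖ ^ 2 = ∑ j, (L v j) ^ 2 := by
      rw [← L.norm_map v, EuclideanSpace.norm_sq_eq]
      apply Finset.sum_congr rfl
      intro j _
      rw [Real.norm_eq_abs, sq_abs]
    have hlow : ∀ j, -(a * β) ≤ L v j := by
      intro j
      have h1 : L v j = -∑ l ∈ Finset.univ.erase j, L v l := by
        have := hL v
        rw [← Finset.sum_erase_add _ _ (Finset.mem_univ j)] at this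
        linarith
      have h2 : ∑ l ∈ Finset.univ.erase j, L v l ≤ ∑ _l ∈ Finset.univ.erase j, β :=
        Finset.sum_le_sum (fun l _ => (hc l).le)
      rw [Finset.sum_const, Finset.card_erase_of_mem (Finset.mem_univ j), Finset.card_univ,
        Fintype.card_fin, nsmul_eq_mul] at h2
      simp only [Nat.add_sub_cancel] at h2
      linarith
    have h4 : 0 ≤ ∑ j, (β - L v j) * (L v j + a * β) :=
      Finset.sum_nonneg fun j _ => mul_nonneg (sub_nonneg.2 (hc j).le) (by linarith [hlow j])
    have h5 : ∑ j, (β - L v j) * (L v j + a * β) = (a + 1) * (a * β ^ 2) - ‖v‖ ^ 2 := by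
      have : ∀ j, (β - L v j) * (L v j + a * β)
          = a * β ^ 2 + (β - a * β) * L v j - (L v j) ^ 2 := by
        intro j; ring
      have hm : ∑ j, (β - a * β) * L v j = 0 := by
        rw [← Finset.mul_sum, hL v, mul_zero]
      rw [Finset.sum_congr rfl (fun j _ => this j), Finset.sum_sub_distrib,
        Finset.sum_add_distrib, hm, ← hv]
      simp
    rw [h5] at h4
    have h6 : ‖v‖ = β * (a + 1) := by rw [hβ]; field_simp
    rw [h6] at h4
    -- (a+1) a β² - β² (a+1)² = -(a+1) β² 
    have h7 : (a + 1) * (a * β ^ 2) - (β * (a + 1)) ^ 2 = -((a + 1) * β ^ 2) := by ring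
    rw [h7] at h4
    have h8 : β = 0 := by
      by_contra hne
      have : 0 < β ^ 2 := by positivity
      nlinarith
    have h9 : ‖v‖ = 0 := by rw [h6, h8]; simp
    have h10 : ∑ j, L v j < 0 := by
      have := Finset.sum_lt_sum_of_nonempty (s := (Finset.univ : Finset (Fin (a + 1))))
        Finset.univ_nonempty (f := fun j => L v j) (g := fun _ => (0 : ℝ))
        (fun j _ => by have := hc j; rw [h8] at this; exact this)
      simpa using this
    rw [hL v] at h10
    exact lt_irrefl _ h10
  refine ⟨fun i => (A (e i) : E), fun i => (A (e i)).2, ?_, ?_⟩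
  · intro i
    have h1 : ‖A (e i)‖ ≤ ‖L.toContinuousLinearMap.adjoint‖ * ‖e i‖ :=
      ContinuousLinearMap.le_opNorm _ _
    have h2 : ‖L.toContinuousLinearMap.adjoint‖ ≤ 1 := by
      rw [ContinuousLinearMap.adjoint.norm_map]
      exact L.norm_toContinuousLinearMap_le
    have h3 : ‖e i‖ = 1 := by simp [e]
    rw [h3, mul_one] at h1
    exact h1.trans h2
  · intro v hv
    obtain ⟨i, hi⟩ := key ⟨v, hv⟩
    refine ⟨i, ?_⟩
    have := hA i ⟨v, hv⟩
    rw [← this] at hi
    exact hi

end Vale.Agent.P052.H632
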