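import Vale.Agent.P052.R2.H632.Sum
import Vale.Agent.P052.R2.H632.SimpV

open Metric Set
open scoped InnerProductSpace

namespace Vale.Agent.P052.H632

variable {E : Type*} [NormedAddCommGroup E] [InnerProductSpace ℝ E] [FiniteDimensional ℝ E]

/-- SUMMANDS, balls of an `m`-dimensional subspace. -/
theorem summand_ball {X : Set E} (hX : Bornology.IsBounded X) (hD : 0 < diam X) {m : ℕ}
    (V : Submodule ℝ E) (hV : Module.finrank ℝ V = m) (hm : 1 ≤ m) {r : ℝ} (hr : 0 < r)
    (H : Rolls X {z | z ∈ V ∧ ‖z‖ ≤ r}) :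
    Split X (m + 1) := by
  obtain ⟨u, huV, hu1, huv⟩ := simplex_vectors V hV
  have hnz : ∃ i, u i ≠ 0 := by
    have : Nontrivial V := Module.nontrivial_of_finrank_pos (R := ℝ) (by omega)
    obtain ⟨v, hv⟩ := exists_ne (0 : V)
    obtain ⟨i, hi⟩ := huv v v.2
    refine ⟨i, fun h0 => ?_⟩
    rw [h0, inner_zero_left] at hi
    have : 0 < ‖(v : E)‖ / (m + 1) := by
      have : (v : E) ≠ 0 := by simpa using hv
      positivity
    linarith
  have h := vectors hX hD (k := m + 1) (N := 0) u (fun j => j.elim0)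
    (fun j => j.elim0) ?_
  · simpa using h
  · intro x hx hfar
    right
    obtain ⟨c, ⟨z, ⟨hzV, hzr⟩, hxz⟩, hc⟩ := H x hx hfar
    -- a multiple of some vector stays in the ball
    obtain ⟨i, t, ht, hui, hball⟩ : ∃ i, ∃ t : ℝ, 0 < t ∧ u i ≠ 0 ∧ ‖z + t • u i‖ ≤ r := by
      by_cases hz : z = 0
      · obtain ⟨i, hi⟩ := hnz
        refine ⟨i, r, hr, hi, ?_⟩
        rw [hz, zero_add, norm_smul, Real.norm_of_nonneg hr.le]
        calc r * ‖u i‖ ≤ r * 1 := mul_le_mul_of_nonneg_left (hu1 i) hr.le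
          _ = r := mul_one r
      · obtain ⟨i, hi⟩ := huv (-z) (V.neg_mem hzV)
        have hzp : 0 < ‖z‖ := norm_pos_iff.2 hz
        rw [norm_neg, inner_neg_right] at hi
        set t := ‖z‖ / ((m : ℝ) + 1) with ht
        have ht0 : 0 < t := by positivity
        refine ⟨i, t, ht0, ?_, ?_⟩
        · intro h0
          rw [h0, inner_zero_left] at hi
          linarith
        · have h1 : ‖z + t • u i‖ ^ 2 ≤ r ^ 2 := by
            rw [@norm_add_sq_real, inner_smul_right, norm_smul, Real.norm_of_nonneg ht0.le]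
            have h2 : ⟪z, u i⟫_ℝ ≤ -t := by rw [real_inner_comm]; linarith
            have h3 : t ≤ ‖z‖ := by
              rw [ht]
              exact div_le_self hzp.le (by linarith [(Nat.cast_nonneg m : (0 : ℝ) ≤ m)])
            have h4 : (t * ‖u i‖) ^ 2 ≤ t ^ 2 := by
              have : t * ‖u i‖ ≤ t * 1 := mul_le_mul_of_nonneg_left (hu1 i) ht0.le
              rw [mul_one] at this
              exact pow_le_pow_left₀ (by positivity) this 2
            have h5 : ‖z‖ ^ 2 ≤ r ^ 2 := pow_le_pow_left₀ (norm_nonneg _) hzr 2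
            nlinarith [mul_le_mul_of_nonneg_left h2 ht0.le]
          exact (pow_le_pow_iff_left₀ (norm_nonneg _) hr.le (by norm_num)).1 h1
    refine ⟨i, fun y hy hd => ?_⟩
    have hmem : z + t • u i ∈ {z | z ∈ V ∧ ‖z‖ ≤ r} :=
      ⟨V.add_mem hzV (V.smul_mem t (huV i)), hball⟩
    have hd2 : dist (x + t • u i) y ≤ diam X := by
      have h1 := dist_closure_le (hc _ hmem) y hy
      rwa [← add_assoc, ← hxz] at h1
    have h2 := inner_pos_of_dist hd (smul_ne_zero ht.ne' hui) hd2
    rw [inner_smul_left] at h2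
    exact (mul_pos_iff_of_pos_left (by simpa using ht)).1 h2

/-- Symmetry about a point. -/
theorem symmetric_point {X : Set E} (hX : Bornology.IsBounded X) (hD : 0 < diam X) {κ : ℝ}
    (hκ0 : 0 ≤ κ) (hκ : CellB (Module.finrank ℝ E) κ) (p0 : E)
    (hG : ∀ v w : E, ‖v‖ = 1 → ‖w‖ = 1 → ∃ g : E →ₗᵢ[ℝ] E,
      (∀ x ∈ X, p0 + g (x - p0) ∈ X) ∧ κ < ⟪g v, w⟫_ℝ) :
    Split X (Module.finrank ℝ E + 1) := by
  have h := symmetric hX hD (⊤ : Submodule ℝ E) (a := Module.finrank ℝ E) (finrank_top ℝ E) hκ p0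
    (fun v _ w _ hv hw => by
      obtain ⟨g, hg1, hg2⟩ := hG v w hv hw
      refine ⟨g, fun q hq => ?_, hg1, hg2⟩
      rw [Submodule.top_orthogonal_eq_bot, Submodule.mem_bot] at hq
      rw [hq, map_zero]) (N := 0) (fun j => j.elim0) (fun j => j.elim0) ?_
  · simpa using h
  · rintro x hx ⟨y, hy, hd⟩ hx0
    exfalso
    rw [Submodule.top_orthogonal_eq_bot, Submodule.mem_bot, sub_eq_zero] at hx0
    subst hx0
    -- `y` is far from the centre `x`
    have hy0 : y - x ≠ 0 := by
      intro h0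
      rw [sub_eq_zero] at h0
      rw [h0, dist_self] at hd
      linarith
    set s := ‖y - x‖ with hs
    have hs0 : 0 < s := norm_pos_iff.2 hy0
    have hsD : s = diam X := by rw [hs, ← dist_eq_norm, dist_comm]; exact hd
    have hv1 : ‖s⁻¹ • (y - x)‖ = 1 := by
      rw [norm_smul, norm_inv, Real.norm_of_nonneg hs0.le, ← hs, inv_mul_cancel₀ hs0.ne']
    obtain ⟨g, hg1, hg2⟩ := hG (s⁻¹ • (y - x)) (-(s⁻¹ • (y - x))) hv1 (by rw [norm_neg]; exact hv1)
    have hgy : x + g (y - x) ∈ closure X := by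
      have hcont : Continuous fun z : E => x + g (z - x) :=
        continuous_const.add (g.continuous.comp (continuous_id.sub continuous_const))
      exact map_mem_closure (f := fun z : E => x + g (z - x)) hcont hy hg1
    have hle : dist (x + g (y - x)) y ≤ s := by
      rw [hsD]
      have := dist_le_diam_of_mem hX.closure hgy hy
      rwa [diam_closure] at this
    have h1 : ‖g (y - x) - (y - x)‖ ^ 2 ≤ s ^ 2 := by
      have : x + g (y - x) - y = g (y - x) - (y - x) := by abel
      rw [dist_eq_norm, this] at hle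
      exact pow_le_pow_left₀ (norm_nonneg _) hle 2
    rw [@norm_sub_sq_real, g.norm_map, ← hs] at h1
    have h2 : ⟪g (s⁻¹ • (y - x)), -(s⁻¹ • (y - x))⟫_ℝ = -(s⁻¹ * s⁻¹ * ⟪g (y - x), y - x⟫_ℝ) := by
      rw [map_smul, inner_neg_right, inner_smul_left, inner_smul_right]
      simp only [conj_trivial]
      ring
    rw [h2] at hg2
    have h3 : 0 ≤ κ := hκ0
    have h4 : 0 < s⁻¹ * s⁻¹ := by positivity
    have h5 : ⟪g (y - x), y - x⟫_ℝ < 0 := by
      by_contra hc
      push Not at hc
      have := mul_nonneg h4.le hc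
      linarith
    nlinarith [sq_nonneg s, hs0]

end Vale.Agent.P052.H632
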