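import Vale.Agent.P052.R2.H632.Sym
import Vale.Agent.P052.R3.H436.Exact

open scoped InnerProductSpace

namespace Vale.Agent.P052.H632

/-- `√(m n / ((m + 1) (n + 1)))` with `m = ⌊a/2⌋`, `n = ⌈a/2⌉`. -/
noncomputable def kap (a : ℕ) : ℝ :=
  √(((a / 2 : ℕ) * ((a + 1) / 2 : ℕ) : ℝ) / (((a / 2 : ℕ) + 1) * (((a + 1) / 2 : ℕ) + 1)))

theorem kap_nonneg (a : ℕ) : 0 ≤ kap a := Real.sqrt_nonneg _

theorem cellB_kap (a : ℕ) : CellB a (kap a) := by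
  intro x y hx hy i hxi hyi
  have h := Vale.Agent.P052.R3.H436.cell_exact (fun j => x j) (fun j => y j) hx hy i hxi hyi
    (kap a) (kap_nonneg a) (Vale.Agent.P052.R3.H436.kappa_le_one a)
    (Vale.Agent.P052.R3.H436.kappa_ok a)
  have h1 : ∑ j, (x j - y j) ^ 2 = ‖x - y‖ ^ 2 := by
    rw [EuclideanSpace.norm_sq_eq]; simp
  have h2 : ∑ j, (x j + y j) ^ 2 = ‖x + y‖ ^ 2 := by
    rw [EuclideanSpace.norm_sq_eq]; simp
  rw [h1, h2, @norm_sub_sq_real, @norm_add_sq_real] at h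
  linarith

theorem kap_two : kap 2 = 1 / 2 := by
  unfold kap
  have : (((2 / 2 : ℕ) * ((2 + 1) / 2 : ℕ) : ℝ) / (((2 / 2 : ℕ) + 1) * (((2 + 1) / 2 : ℕ) + 1)))
      = (1 / 2) ^ 2 := by norm_num
  rw [this, Real.sqrt_sq (by norm_num)]

theorem cellB_two : CellB 2 (1 / 2) := by
  have := cellB_kap 2
  rwa [kap_two] at this

end Vale.Agent.P052.H632
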