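import Mathlib

/-!
P052, helper632: vectors, summands and symmetry without mirrors.
-/

open Metric Set
open scoped InnerProductSpace

namespace Vale.Agent.P052.H632

/-- `X` is a union of `k` subsets of diameter smaller than `diam X`. -/
def Split {E : Type*} [PseudoMetricSpace E] (X : Set E) (k : ℕ) : Prop :=
  ∃ S : Fin k → Set E, (∀ i, S i ⊆ X ∧ diam (S i) < diam X) ∧ X = ⋃ i, S i

variable {E : Type*} [NormedAddCommGroup E] [InnerProductSpace ℝ E] [FiniteDimensional ℝ E]

/-- A compact set of a proper space without pair at distance `D` inside a set of diameter `≤ D`,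
`D > 0`, has diameter `< D`. -/
theorem diam_lt_of_compact {C : Set E} (hC : IsCompact C) {D : ℝ} (hD : 0 < D)
    (hle : ∀ x ∈ C, ∀ y ∈ C, dist x y ≤ D) (hne : ∀ x ∈ C, ∀ y ∈ C, dist x y ≠ D) :
    diam C < D := by
  rcases C.eq_empty_or_nonempty with rfl | ⟨x0, hx0⟩
  · simpa using hD
  · have hcc : IsCompact (C ×ˢ C) := hC.prod hC
    obtain ⟨⟨a, b⟩, hab, hmax⟩ := hcc.exists_isMaxOn ⟨(x0, x0), hx0, hx0⟩
      (f := fun p : E × E => dist p.1 p.2) (continuous_dist.continuousOn)
    have h1 : diam C ≤ dist a b := by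
      refine diam_le_of_forall_dist_le dist_nonneg ?_
      intro x hx y hy
      exact hmax (show (x, y) ∈ C ×ˢ C from ⟨hx, hy⟩)
    exact h1.trans_lt (lt_of_le_of_ne (hle a hab.1 b hab.2) (hne a hab.1 b hab.2))

/-- General open-cover principle. `K` compact, open sets `O i` (relative: `K ∩ O i` has no pair at
distance `D`). -/
theorem split_of_open_cover {X : Set E} (hX : Bornology.IsBounded X) (hD : 0 < diam X) {k : ℕ}
    (O : Fin k → Set E) (hO : ∀ i, IsOpen (O i)) (hcov : closure X ⊆ ⋃ i, O i)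
    (hno : ∀ i, ∀ x ∈ closure X ∩ O i, ∀ y ∈ closure X ∩ O i, dist x y ≠ diam X) :
    Split X k := by
  have hK : IsCompact (closure X) := hX.isCompact_closure
  have hdist : ∀ x ∈ closure X, ∀ y ∈ closure X, dist x y ≤ diam X := by
    intro x hx y hy
    have := dist_le_diam_of_mem hX.closure hx hy
    rwa [diam_closure] at this
  obtain ⟨C, hC1, hC2, hC3⟩ := hK.finite_compact_cover Finset.univ O (fun i _ => hO i)
    (by simpa using hcov)
  refine ⟨fun i => X ∩ C i, fun i => ⟨inter_subset_left, ?_⟩, ?_⟩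
  · have hCi : C i ⊆ closure X := by
      intro x hx
      rw [hC3]
      exact mem_iUnion₂.2 ⟨i, Finset.mem_univ i, hx⟩
    have h1 : diam (C i) < diam X := by
      refine diam_lt_of_compact (hC1 i) hD (fun x hx y hy => hdist x (hCi hx) y (hCi hy)) ?_
      intro x hx y hy
      exact hno i x ⟨hCi hx, hC2 i hx⟩ y ⟨hCi hy, hC2 i hy⟩
    exact (diam_mono inter_subset_right ((hC1 i).isBounded)).trans_lt h1
  · apply Subset.antisymm
    · intro x hx
      have h1 : x ∈ closure X := subset_closure hx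
      rw [hC3] at h1
      obtain ⟨i, _, hi⟩ := mem_iUnion₂.1 h1
      exact mem_iUnion.2 ⟨i, hx, hi⟩
    · intro x hx
      obtain ⟨i, hi⟩ := mem_iUnion.1 hx
      exact hi.1

/-- The set of points of `K` all of whose far points `y` satisfy `(x, y) ∈ W` for an open `W`
is relatively open: the complement in `K` is compact. -/
theorem isClosed_bad {X : Set E} (hX : Bornology.IsBounded X) {W : Set (E × E)} (hW : IsOpen W) :
    IsClosed {x : E | ∃ y ∈ closure X, x ∈ closure X ∧ dist x y = diam X ∧ (x, y) ∉ W} := by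
  have hK : IsCompact (closure X) := hX.isCompact_closure
  have h1 : IsCompact ((closure X ×ˢ closure X) ∩ ({p : E × E | dist p.1 p.2 = diam X} ∩ Wᶜ)) := by
    apply (hK.prod hK).inter_right
    exact (isClosed_eq continuous_dist continuous_const).inter hW.isClosed_compl
  have h2 := (h1.image continuous_fst).isClosed
  convert h2 using 1
  ext x
  constructor
  · rintro ⟨y, hy, hx, hd, hw⟩
    exact ⟨(x, y), ⟨⟨hx, hy⟩, hd, hw⟩, rfl⟩
  · rintro ⟨⟨a, b⟩, ⟨⟨ha, hb⟩, hd, hw⟩, rfl⟩
    exact ⟨b, hb, ha, hd, hw⟩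

/-- Enlarging a set of diameter `< D` to an open set whose points have distances `< D`. -/
theorem exists_open_enlarge {T : Set E} (hT : Bornology.IsBounded T) {D : ℝ} (hTD : diam T < D) :
    ∃ V : Set E, IsOpen V ∧ T ⊆ V ∧ ∀ x ∈ V, ∀ y ∈ V, dist x y < D := by
  set δ := (D - diam T) / 2 with hδ
  have hδ0 : 0 < δ := by rw [hδ]; linarith
  refine ⟨thickening δ T, isOpen_thickening, self_subset_thickening hδ0 T, ?_⟩
  intro x hx y hy
  obtain ⟨a, ha, hxa⟩ := mem_thickening_iff.1 hx
  obtain ⟨b, hb, hyb⟩ := mem_thickening_iff.1 hy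
  have h1 := dist_le_diam_of_mem hT ha hb
  have h2 : dist x y ≤ dist x a + dist a b + dist b y := dist_triangle4 x a b y
  rw [dist_comm y b] at hyb
  have : δ + δ = D - diam T := by rw [hδ]; ring
  linarith

/-- MASTER THEOREM. -/
theorem master {X : Set E} (hX : Bornology.IsBounded X) (hD : 0 < diam X) {k N : ℕ}
    (W : Fin k → Set (E × E)) (hW : ∀ i, IsOpen (W i))
    (hanti : ∀ i x y, (x, y) ∈ W i → (y, x) ∉ W i)
    (T : Fin N → Set E) (hT : ∀ j, Bornology.IsBounded (T j) ∧ diam (T j) < diam X)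
    (H : ∀ x ∈ closure X, (∃ y ∈ closure X, dist x y = diam X) →
      (∃ j, x ∈ T j) ∨ ∃ i, ∀ y ∈ closure X, dist x y = diam X → (x, y) ∈ W i)
    (hpos : 0 < k + N) :
    Split X (k + N) := by
  choose V hV1 hV2 hV3 using fun j => exists_open_enlarge (hT j).1 (hT j).2
  -- open sets
  let B : Set E → Set E := fun _ => ∅
  let O1 : Fin k → Set E := fun i =>
    {x : E | ∃ y ∈ closure X, x ∈ closure X ∧ dist x y = diam X ∧ (x, y) ∉ W i}ᶜ
  have hO1 : ∀ i, IsOpen (O1 i) := fun i => (isClosed_bad hX (hW i)).isOpen_compl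
  -- points without far points
  let F : Set E := {x : E | ∃ y ∈ closure X, x ∈ closure X ∧ dist x y = diam X ∧
    (x, y) ∉ (∅ : Set (E × E))}
  have hF : IsClosed F := isClosed_bad hX isOpen_empty
  let O : Fin (k + N) → Set E := Fin.addCases (fun i => O1 i ∪ Fᶜ) (fun j => V j ∪ Fᶜ)
  refine split_of_open_cover hX hD O ?_ ?_ ?_
  · intro i
    refine Fin.addCases (fun i => ?_) (fun j => ?_) i
    · simp only [O, Fin.addCases_left]
      exact (hO1 i).union hF.isOpen_compl
    · simp only [O, Fin.addCases_right]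
      exact (hV1 j).union hF.isOpen_compl
  · intro x hx
    by_cases hfar : ∃ y ∈ closure X, dist x y = diam X
    · rcases H x hx hfar with ⟨j, hj⟩ | ⟨i, hi⟩
      · refine mem_iUnion.2 ⟨Fin.natAdd k j, ?_⟩
        simp only [O, Fin.addCases_right]
        exact Or.inl (hV2 j hj)
      · refine mem_iUnion.2 ⟨Fin.castAdd N i, ?_⟩
        simp only [O, Fin.addCases_left]
        left
        rintro ⟨y, hy, _, hd, hw⟩
        exact hw (hi y hy hd)
    · refine mem_iUnion.2 ⟨⟨0, hpos⟩, ?_⟩
      have hxF : x ∈ Fᶜ := by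
        rintro ⟨y, hy, _, hd, _⟩
        exact hfar ⟨y, hy, hd⟩
      refine Fin.addCases (motive := fun i => x ∈ O i) (fun i => ?_) (fun j => ?_)
        (⟨0, hpos⟩ : Fin (k + N))
      · simp only [O, Fin.addCases_left]
        exact Or.inr hxF
      · simp only [O, Fin.addCases_right]
        exact Or.inr hxF
  · intro i
    refine Fin.addCases (fun i => ?_) (fun j => ?_) i
    · simp only [O, Fin.addCases_left]
      rintro x ⟨hx, hxO⟩ y ⟨hy, hyO⟩ hd
      have hxF : x ∈ F := ⟨y, hy, hx, hd, by simp⟩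
      have hyF : y ∈ F := ⟨x, hx, hy, by rw [dist_comm]; exact hd, by simp⟩
      have h1 : x ∈ O1 i := hxO.resolve_right (fun h => h hxF)
      have h2 : y ∈ O1 i := hyO.resolve_right (fun h => h hyF)
      have h3 : (x, y) ∈ W i := by
        by_contra hc
        exact h1 ⟨y, hy, hx, hd, hc⟩
      have h4 : (y, x) ∈ W i := by
        by_contra hc
        exact h2 ⟨x, hx, hy, by rw [dist_comm]; exact hd, hc⟩
      exact hanti i x y h3 h4
    · simp only [O, Fin.addCases_right]
      rintro x ⟨hx, hxO⟩ y ⟨hy, hyO⟩ hd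
      have hxF : x ∈ F := ⟨y, hy, hx, hd, by simp⟩
      have hyF : y ∈ F := ⟨x, hx, hy, by rw [dist_comm]; exact hd, by simp⟩
      have h1 : x ∈ V j := hxO.resolve_right (fun h => h hxF)
      have h2 : y ∈ V j := hyO.resolve_right (fun h => h hyF)
      exact absurd hd (hV3 j x h1 y h2).ne

end Vale.Agent.P052.H632
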