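import Vale.Agent.P052.R2.H632.Sum

open Metric Set
open scoped InnerProductSpace Pointwise

namespace Vale.Agent.P052.H632

variable {E : Type*} [NormedAddCommGroup E] [InnerProductSpace ℝ E] [FiniteDimensional ℝ E]

theorem rolls_of_sum {X Y Z : Set E} (hZ : IsCompact Z) (hX : X ⊆ Y + Z)
    (hb : Bornology.IsBounded (Y + Z)) (hd : diam (Y + Z) ≤ diam X) : Rolls X Z := by
  intro x hx _
  have hcl : IsClosed (closure Y + Z) := isClosed_closure.add_right_of_isCompact hZ
  have hsub : closure X ⊆ closure Y + Z :=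
    closure_minimal (hX.trans (add_subset_add_right subset_closure)) hcl
  obtain ⟨c, hc, z, hz, hxz⟩ := hsub hx
  refine ⟨c, ⟨z, hz, hxz.symm⟩, ?_⟩
  intro z' hz' y hy
  have h1 : c + z' ∈ closure (Y + Z) := by
    have : Continuous fun c : E => c + z' := continuous_id.add continuous_const
    exact map_mem_closure (f := fun c : E => c + z') this hc
      (fun y hy => add_mem_add hy hz')
  have h2 : y ∈ closure (Y + Z) := subset_closure (hX hy)
  have h3 := dist_le_diam_of_mem hb.closure h1 h2
  rw [diam_closure] at h3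
  exact h3.trans hd

theorem rolls_of_convexHull {X Z : Set E} (hX : Bornology.IsBounded X)
    (H : ∀ x ∈ closure X, (∃ y ∈ closure X, dist x y = diam X) →
      ∃ c : E, (∃ z ∈ Z, x = c + z) ∧ ∀ z ∈ Z, c + z ∈ convexHull ℝ (closure X)) :
    Rolls X Z := by
  intro x hx hfar
  obtain ⟨c, hc, hz⟩ := H x hx hfar
  refine ⟨c, hc, fun z hzZ y hy => ?_⟩
  have h1 := dist_le_diam_of_mem ((isBounded_convexHull (s := closure X)).2 hX.closure)
    (hz z hzZ) (subset_convexHull ℝ _ (subset_closure hy))
  rwa [convexHull_diam, diam_closure] at h1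

end Vale.Agent.P052.H632
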