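import Vale.Agent.P052.R2.H632.Sym

open Metric Set
open scoped InnerProductSpace

namespace Vale.Agent.P052.H632

variable {E : Type*} [NormedAddCommGroup E] [InnerProductSpace ℝ E] [FiniteDimensional ℝ E]

theorem powers {X : Set E} (p0 : E) (e : Fin 2 → E) (θ : ℝ) (g : E →ₗᵢ[ℝ] E)
    (hg0 : g (e 0) = Real.cos θ • e 0 + Real.sin θ • e 1)
    (hg1 : g (e 1) = -Real.sin θ • e 0 + Real.cos θ • e 1)
    (hgq : ∀ q : E, ⟪e 0, q⟫_ℝ = 0 → ⟪e 1, q⟫_ℝ = 0 → g q = q)
    (hgX : ∀ x ∈ X, p0 + g (x - p0) ∈ X) (k : ℕ) :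
    ∃ h : E →ₗᵢ[ℝ] E, h (e 0) = Real.cos (k * θ) • e 0 + Real.sin (k * θ) • e 1 ∧
      h (e 1) = -Real.sin (k * θ) • e 0 + Real.cos (k * θ) • e 1 ∧
      (∀ q : E, ⟪e 0, q⟫_ℝ = 0 → ⟪e 1, q⟫_ℝ = 0 → h q = q) ∧
      (∀ x ∈ X, p0 + h (x - p0) ∈ X) := by
  induction k with
  | zero =>
    refine ⟨LinearIsometry.id, ?_, ?_, fun q _ _ => rfl, fun x hx => ?_⟩
    · simp
    · simp
    · simpa using hx
  | succ k ih =>
    obtain ⟨h, h0, h1, h2, h3⟩ := ih
    refine ⟨g.comp h, ?_, ?_, ?_, ?_⟩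
    · show g (h (e 0)) = _
      rw [h0, map_add, map_smul, map_smul, hg0, hg1]
      push_cast
      rw [add_mul, one_mul, Real.cos_add, Real.sin_add]
      module
    · show g (h (e 1)) = _
      rw [h1, map_add, map_smul, map_smul, hg0, hg1]
      push_cast
      rw [add_mul, one_mul, Real.cos_add, Real.sin_add]
      module
    · intro q hq0 hq1
      show g (h q) = q
      rw [h2 q hq0 hq1, hgq q hq0 hq1]
    · intro x hx
      have := hgX _ (h3 x hx)
      simpa using this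

/-- ROTATIONS of finite order about a flat of codimension two. -/
theorem rotation {X : Set E} (hX : Bornology.IsBounded X) (hD : 0 < diam X)
    (hκ : CellB 2 (1 / 2)) (p0 : E) (e : Fin 2 → E) (he : Orthonormal ℝ e) {m : ℕ} (hm : 4 ≤ m) (g : E →ₗᵢ[ℝ] E)
    (hg0 : g (e 0) = Real.cos (2 * Real.pi / m) • e 0 + Real.sin (2 * Real.pi / m) • e 1)
    (hg1 : g (e 1) = -Real.sin (2 * Real.pi / m) • e 0 + Real.cos (2 * Real.pi / m) • e 1)
    (hgq : ∀ q : E, ⟪e 0, q⟫_ℝ = 0 → ⟪e 1, q⟫_ℝ = 0 → g q = q)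
    (hgX : ∀ x ∈ X, p0 + g (x - p0) ∈ X)
    {N : ℕ} (T : Fin N → Set E)
    (hT : ∀ j, Bornology.IsBounded (T j) ∧ diam (T j) < diam X)
    (hcov : ∀ x ∈ closure X, (∃ y ∈ closure X, dist x y = diam X) → ⟪e 0, x - p0⟫_ℝ = 0 →
      ⟪e 1, x - p0⟫_ℝ = 0 → ∃ j, x ∈ T j) :
    Split X (3 + N) := by
  have hfr : Module.finrank ℝ (Submodule.span ℝ (range e)) = 2 := by
    rw [finrank_span_eq_card he.linearIndependent]
    simp
  have hm0 : (0 : ℝ) < m := by
    have : 0 < m := by omega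
    exact_mod_cast this
  have h00 : ⟪e 0, e 0⟫_ℝ = 1 := by rw [real_inner_self_eq_norm_sq, he.1 0]; norm_num
  have h11 : ⟪e 1, e 1⟫_ℝ = 1 := by rw [real_inner_self_eq_norm_sq, he.1 1]; norm_num
  have h01 : ⟪e 0, e 1⟫_ℝ = 0 := he.2 (by norm_num)
  have h10 : ⟪e 1, e 0⟫_ℝ = 0 := he.2 (by norm_num)
  -- polar coordinates of unit vectors of the plane
  have hpolar : ∀ v ∈ Submodule.span ℝ (range e), ‖v‖ = 1 →
      ∃ α : ℝ, v = Real.cos α • e 0 + Real.sin α • e 1 := by
    intro v hv hv1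
    rw [Submodule.mem_span_range_iff_exists_fun] at hv
    obtain ⟨c, hc⟩ := hv
    rw [Fin.sum_univ_two] at hc
    have hn : c 0 ^ 2 + c 1 ^ 2 = 1 := by
      have : ‖v‖ ^ 2 = c 0 ^ 2 + c 1 ^ 2 := by
        rw [← real_inner_self_eq_norm_sq, ← hc]
        simp only [inner_add_left, inner_add_right, inner_smul_left, inner_smul_right, h00, h11,
          h01, h10, conj_trivial]
        ring
      rw [← this, hv1]; norm_num
    let z : ℂ := ⟨c 0, c 1⟩
    have hz1 : ‖z‖ = 1 := by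
      have : ‖z‖ ^ 2 = 1 := by
        rw [Complex.sq_norm, Complex.normSq_apply]
        simp only [z]
        nlinarith
      have h := norm_nonneg z
      nlinarith
    have hz0 : z ≠ 0 := by
      intro h; rw [h, norm_zero] at hz1; norm_num at hz1
    refine ⟨Complex.arg z, ?_⟩
    rw [Complex.cos_arg hz0, Complex.sin_arg, hz1, div_one, div_one]
    exact hc.symm
  have h := symmetric hX hD (Submodule.span ℝ (range e)) (a := 2) hfr hκ p0 ?_ T hT ?_
  · exact h
  · intro v hv w hw hv1 hw1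
    obtain ⟨α, rfl⟩ := hpolar v hv hv1
    obtain ⟨β, rfl⟩ := hpolar w hw hw1
    set θ : ℝ := 2 * Real.pi / m with hθ
    have hθ0 : 0 < θ := by rw [hθ]; positivity
    -- the nearest multiple
    set n : ℤ := round ((β - α) / θ) with hn
    set k : ℕ := (n % (m : ℤ)).toNat with hk
    have hmz : (m : ℤ) ≠ 0 := by omega
    have hkn : ((k : ℤ)) = n % (m : ℤ) := Int.toNat_of_nonneg (Int.emod_nonneg n hmz)
    have hkn2 : (k : ℝ) * θ = n * θ - (n / (m : ℤ) : ℤ) * (2 * Real.pi) := by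
      have h1 : (n : ℤ) = m * (n / m) + n % m := (Int.mul_ediv_add_emod n m).symm
      have h2 : (n : ℝ) = m * ((n / (m : ℤ) : ℤ) : ℝ) + k := by
        rw [← hkn] at h1
        exact_mod_cast h1
      have h3 : (m : ℝ) * θ = 2 * Real.pi := by rw [hθ]; field_simp
      have h4 : (k : ℝ) = n - m * ((n / (m : ℤ) : ℤ) : ℝ) := by linarith
      rw [h4, sub_mul, ← h3]; ring
    obtain ⟨h, hh0, hh1, hh2, hh3⟩ := powers p0 e θ g hg0 hg1 hgq hgX k
    refine ⟨h, ?_, hh3, ?_⟩
    · intro q hq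
      rw [Submodule.mem_orthogonal] at hq
      exact hh2 q (hq _ (Submodule.subset_span (mem_range_self 0)))
        (hq _ (Submodule.subset_span (mem_range_self 1)))
    · have hin : ⟪h (Real.cos α • e 0 + Real.sin α • e 1), Real.cos β • e 0 + Real.sin β • e 1⟫_ℝ
          = Real.cos (α + k * θ - β) := by
        rw [map_add, map_smul, map_smul, hh0, hh1]
        simp only [inner_add_left, inner_add_right, inner_smul_left, inner_smul_right, h00, h11,
          h01, h10, conj_trivial, smul_add, inner_neg_left, neg_smul]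
        rw [Real.cos_sub, Real.cos_add, Real.sin_add]
        ring
      rw [hin]
      have hcos : Real.cos (α + k * θ - β) = Real.cos (n * θ - (β - α)) := by
        rw [hkn2]
        have : α + (n * θ - (n / (m : ℤ) : ℤ) * (2 * Real.pi)) - β
            = (n * θ - (β - α)) - (n / (m : ℤ) : ℤ) * (2 * Real.pi) := by ring
        rw [this, Real.cos_sub_int_mul_two_pi]
      rw [hcos, ← Real.cos_abs]
      have habs : |n * θ - (β - α)| ≤ θ / 2 := by
        have h1 : |(β - α) / θ - n| ≤ 1 / 2 := abs_sub_round _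
        have h2 : n * θ - (β - α) = -(((β - α) / θ - n) * θ) := by field_simp; ring
        rw [h2, abs_neg, abs_mul, abs_of_pos hθ0]
        nlinarith
      have hθ4 : θ / 2 ≤ Real.pi / 4 := by
        have h4 : (4 : ℝ) ≤ m := by exact_mod_cast hm
        rw [hθ, div_div, div_le_div_iff₀ (by positivity) (by norm_num)]
        nlinarith [Real.pi_pos]
      have hlt : |n * θ - (β - α)| < Real.pi / 3 := by
        have := Real.pi_pos
        linarith
      have h5 := Real.cos_lt_cos_of_nonneg_of_le_pi (abs_nonneg (n * θ - (β - α)))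
        (by linarith [Real.pi_pos] : Real.pi / 3 ≤ Real.pi) hlt
      rw [Real.cos_pi_div_three] at h5
      exact h5
  · intro x hx hfar hx0
    rw [Submodule.mem_orthogonal] at hx0
    exact hcov x hx hfar (hx0 _ (Submodule.subset_span (mem_range_self 0)))
      (hx0 _ (Submodule.subset_span (mem_range_self 1)))

end Vale.Agent.P052.H632
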