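import Vale.Agent.P052.R2.H632.Rot

open Metric Set
open scoped InnerProductSpace

namespace Vale.Agent.P052.H632

variable {E : Type*} [NormedAddCommGroup E] [InnerProductSpace ℝ E] [FiniteDimensional ℝ E]

/-- The linear rotation in the plane of `e 0`, `e 1`. -/
noncomputable def rotLin (e : Fin 2 → E) (t : ℝ) : E →ₗ[ℝ] E where
  toFun x := x + ((Real.cos t - 1) * ⟪e 0, x⟫_ℝ - Real.sin t * ⟪e 1, x⟫_ℝ) • e 0 +
    (Real.sin t * ⟪e 0, x⟫_ℝ + (Real.cos t - 1) * ⟪e 1, x⟫_ℝ) • e 1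
  map_add' x y := by
    simp only [inner_add_right]
    module
  map_smul' c x := by
    simp only [inner_smul_right, RingHom.id_apply]
    module

theorem norm_rotLin (e : Fin 2 → E) (he : Orthonormal ℝ e) (t : ℝ) (x : E) :
    ‖rotLin e t x‖ = ‖x‖ := by
  have h00 : ⟪e 0, e 0⟫_ℝ = 1 := by rw [real_inner_self_eq_norm_sq, he.1 0]; norm_num
  have h11 : ⟪e 1, e 1⟫_ℝ = 1 := by rw [real_inner_self_eq_norm_sq, he.1 1]; norm_num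
  have h01 : ⟪e 0, e 1⟫_ℝ = 0 := he.2 (by norm_num)
  have h10 : ⟪e 1, e 0⟫_ℝ = 0 := he.2 (by norm_num)
  have h : ‖rotLin e t x‖ ^ 2 = ‖x‖ ^ 2 := by
    rw [← real_inner_self_eq_norm_sq, ← real_inner_self_eq_norm_sq]
    show ⟪x + ((Real.cos t - 1) * ⟪e 0, x⟫_ℝ - Real.sin t * ⟪e 1, x⟫_ℝ) • e 0 +
      (Real.sin t * ⟪e 0, x⟫_ℝ + (Real.cos t - 1) * ⟪e 1, x⟫_ℝ) • e 1,
      x + ((Real.cos t - 1) * ⟪e 0, x⟫_ℝ - Real.sin t * ⟪e 1, x⟫_ℝ) • e 0 +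
      (Real.sin t * ⟪e 0, x⟫_ℝ + (Real.cos t - 1) * ⟪e 1, x⟫_ℝ) • e 1⟫_ℝ = ⟪x, x⟫_ℝ
    simp only [inner_add_left, inner_add_right, inner_smul_left, inner_smul_right, h00, h11,
      h01, h10, conj_trivial]
    rw [real_inner_comm (e 0) x, real_inner_comm (e 1) x]
    have hcs := Real.sin_sq_add_cos_sq t
    generalize ⟪e 0, x⟫_ℝ = a at *
    generalize ⟪e 1, x⟫_ℝ = b at *
    generalize Real.sin t = s at *
    generalize Real.cos t = c at *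
    have : s ^ 2 = 1 - c ^ 2 := by linarith
    ring_nf
    rw [this]
    ring
  have h1 := norm_nonneg (rotLin e t x)
  have h2 := norm_nonneg x
  exact (sq_eq_sq₀ h1 h2).1 h

/-- ROTATIONS, explicit form. -/
theorem rotation_explicit {X : Set E} (hX : Bornology.IsBounded X) (hD : 0 < diam X)
    (hκ : CellB 2 (1 / 2)) (p0 : E) (e : Fin 2 → E) (he : Orthonormal ℝ e) {m : ℕ} (hm : 4 ≤ m)
    (hgX : ∀ x ∈ X, p0 + rotLin e (2 * Real.pi / m) (x - p0) ∈ X)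
    {N : ℕ} (T : Fin N → Set E)
    (hT : ∀ j, Bornology.IsBounded (T j) ∧ diam (T j) < diam X)
    (hcov : ∀ x ∈ closure X, (∃ y ∈ closure X, dist x y = diam X) → ⟪e 0, x - p0⟫_ℝ = 0 →
      ⟪e 1, x - p0⟫_ℝ = 0 → ∃ j, x ∈ T j) :
    Split X (3 + N) := by
  have h00 : ⟪e 0, e 0⟫_ℝ = 1 := by rw [real_inner_self_eq_norm_sq, he.1 0]; norm_num
  have h11 : ⟪e 1, e 1⟫_ℝ = 1 := by rw [real_inner_self_eq_norm_sq, he.1 1]; norm_num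
  have h01 : ⟪e 0, e 1⟫_ℝ = 0 := he.2 (by norm_num)
  have h10 : ⟪e 1, e 0⟫_ℝ = 0 := he.2 (by norm_num)
  let g : E →ₗᵢ[ℝ] E := ⟨rotLin e (2 * Real.pi / m), norm_rotLin e he _⟩
  refine rotation hX hD hκ p0 e he hm g ?_ ?_ ?_ hgX T hT hcov
  · show e 0 + ((Real.cos _ - 1) * ⟪e 0, e 0⟫_ℝ - Real.sin _ * ⟪e 1, e 0⟫_ℝ) • e 0 +
      (Real.sin _ * ⟪e 0, e 0⟫_ℝ + (Real.cos _ - 1) * ⟪e 1, e 0⟫_ℝ) • e 1 = _
    rw [h00, h10]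
    module
  · show e 1 + ((Real.cos _ - 1) * ⟪e 0, e 1⟫_ℝ - Real.sin _ * ⟪e 1, e 1⟫_ℝ) • e 0 +
      (Real.sin _ * ⟪e 0, e 1⟫_ℝ + (Real.cos _ - 1) * ⟪e 1, e 1⟫_ℝ) • e 1 = _
    rw [h01, h11]
    module
  · intro q h0 h1
    show q + ((Real.cos _ - 1) * ⟪e 0, q⟫_ℝ - Real.sin _ * ⟪e 1, q⟫_ℝ) • e 0 +
      (Real.sin _ * ⟪e 0, q⟫_ℝ + (Real.cos _ - 1) * ⟪e 1, q⟫_ℝ) • e 1 = q
    rw [h0, h1]
    module

end Vale.Agent.P052.H632
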