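import Vale.Agent.P052.R2.H632.Master

open Metric Set
open scoped InnerProductSpace

namespace Vale.Agent.P052.H632

variable {E : Type*} [NormedAddCommGroup E] [InnerProductSpace ℝ E] [FiniteDimensional ℝ E]

/-- An isometry of an `a`-dimensional subspace onto the sum-zero hyperplane. -/
theorem exists_simplex_coords (V : Submodule ℝ E) {a : ℕ} (ha : Module.finrank ℝ V = a) :
    ∃ L : V →ₗᵢ[ℝ] EuclideanSpace ℝ (Fin (a + 1)), ∀ v, ∑ i, L v i = 0 := by
  let one : EuclideanSpace ℝ (Fin (a + 1)) := WithLp.toLp 2 (fun _ => (1 : ℝ))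
  have hone : one ≠ 0 := by
    intro h
    have := congrArg (fun f : EuclideanSpace ℝ (Fin (a + 1)) => f 0) h
    simp [one] at this
  let H : Submodule ℝ (EuclideanSpace ℝ (Fin (a + 1))) := (ℝ ∙ one)ᗮ
  have hH : Module.finrank ℝ H = a := by
    have h1 := Submodule.finrank_add_finrank_orthogonal (ℝ ∙ one)
    rw [finrank_span_singleton hone, finrank_euclideanSpace_fin] at h1
    show Module.finrank ℝ (ℝ ∙ one)ᗮ = a
    omega
  let e : V ≃ₗᵢ[ℝ] H := (stdOrthonormalBasis ℝ V).equiv (stdOrthonormalBasis ℝ H)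
    (finCongr (by rw [ha, hH]))
  refine ⟨H.subtypeₗᵢ.comp e.toLinearIsometry, fun v => ?_⟩
  have h1 : (e v : EuclideanSpace ℝ (Fin (a + 1))) ∈ (ℝ ∙ one)ᗮ := (e v).2
  rw [Submodule.mem_orthogonal_singleton_iff_inner_right] at h1
  have h2 : ⟪one, (e v : EuclideanSpace ℝ (Fin (a + 1)))⟫_ℝ
      = ∑ i, (e v : EuclideanSpace ℝ (Fin (a + 1))) i := by
    rw [PiLp.inner_apply]
    apply Finset.sum_congr rfl
    intro i _
    simp [one]
  rw [h2] at h1
  exact h1

/-- Cell lemma (helper147): two sum-zero vectors with a common maximal coordinate. -/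
theorem cell_lemma {n : ℕ} (a b : EuclideanSpace ℝ (Fin (n + 1))) (ha : ∑ i, a i = 0)
    (hb : ∑ i, b i = 0) (i0 : Fin (n + 1)) (h1 : ∀ j, a j ≤ a i0) (h2 : ∀ j, b j ≤ b i0) :
    -((n : ℝ) + 2) * (2 * ⟪a, b⟫_ℝ) ≤ n * (‖a‖ ^ 2 + ‖b‖ ^ 2) := by
  have key : ∀ x : EuclideanSpace ℝ (Fin (n + 1)), ∑ i, x i = 0 →
      ‖x‖ ^ 2 = ∑ j, (x i0 - x j) ^ 2 - (n + 1) * (x i0) ^ 2 := by
    intro x hx
    rw [EuclideanSpace.norm_sq_eq]
    have : ∑ j, (x i0 - x j) ^ 2 = ∑ j, ((x i0) ^ 2 - 2 * x i0 * x j + ‖x j‖ ^ 2) := by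
      apply Finset.sum_congr rfl
      intro j _
      rw [Real.norm_eq_abs, sq_abs]
      ring
    rw [this, Finset.sum_add_distrib, Finset.sum_sub_distrib, ← Finset.mul_sum, hx]
    simp
  have hsum : ∀ x : EuclideanSpace ℝ (Fin (n + 1)), ∑ i, x i = 0 →
      ∑ j, (x i0 - x j) = (n + 1) * x i0 := by
    intro x hx
    rw [Finset.sum_sub_distrib, hx]
    simp
  have hab : ∑ i, (a + b) i = 0 := by
    simp only [PiLp.add_apply, Finset.sum_add_distrib, ha, hb, add_zero]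
  have hamb : ∑ i, (a - b) i = 0 := by
    simp only [PiLp.sub_apply, Finset.sum_sub_distrib, ha, hb, sub_zero]
  -- Cauchy over the indices different from i0
  have hC : (∑ j, ((a + b) i0 - (a + b) j)) ^ 2
      ≤ n * ∑ j, ((a + b) i0 - (a + b) j) ^ 2 := by
    rw [← Finset.sum_erase_add _ _ (Finset.mem_univ i0),
      ← Finset.sum_erase_add (f := fun j => ((a + b) i0 - (a + b) j) ^ 2) _
        (Finset.mem_univ i0)]
    simp only [sub_self, add_zero, ne_eq, OfNat.ofNat_ne_zero, not_false_eq_true, zero_pow]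
    have := sq_sum_le_card_mul_sum_sq (s := Finset.univ.erase i0)
      (f := fun j => (a + b) i0 - (a + b) j)
    rw [Finset.card_erase_of_mem (Finset.mem_univ i0), Finset.card_univ, Fintype.card_fin] at this
    simpa using this
  have hn1 : (0 : ℝ) < n + 1 := by positivity
  have k1 : (n + 1 : ℝ) * ‖a + b‖ ^ 2 ≥ ∑ j, ((a + b) i0 - (a + b) j) ^ 2 := by
    rw [key _ hab]
    rw [hsum _ hab] at hC
    nlinarith
  have k2 : ‖a - b‖ ^ 2 ≤ ∑ j, ((a - b) i0 - (a - b) j) ^ 2 := by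
    rw [key _ hamb]
    nlinarith [sq_nonneg ((a - b) i0)]
  have k3 : ∑ j, ((a - b) i0 - (a - b) j) ^ 2 ≤ ∑ j, ((a + b) i0 - (a + b) j) ^ 2 := by
    apply Finset.sum_le_sum
    intro j _
    simp only [PiLp.add_apply, PiLp.sub_apply]
    nlinarith [mul_nonneg (sub_nonneg.2 (h1 j)) (sub_nonneg.2 (h2 j))]
  have k4 : ‖a - b‖ ^ 2 ≤ (n + 1) * ‖a + b‖ ^ 2 := by linarith
  rw [@norm_sub_sq_real, @norm_add_sq_real] at k4
  nlinarith

end Vale.Agent.P052.H632
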