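import Vale.Agent.P052.R2.H632.Sym

open Metric Set
open scoped InnerProductSpace

namespace Vale.Agent.P052.H632

variable {E : Type*} [NormedAddCommGroup E] [InnerProductSpace ℝ E] [FiniteDimensional ℝ E]

/-- VECTORS. -/
theorem vectors {X : Set E} (hX : Bornology.IsBounded X) (hD : 0 < diam X) {k N : ℕ}
    (u : Fin k → E) (T : Fin N → Set E)
    (hT : ∀ j, Bornology.IsBounded (T j) ∧ diam (T j) < diam X)
    (H : ∀ x ∈ closure X, (∃ y ∈ closure X, dist x y = diam X) →
      (∃ j, x ∈ T j) ∨ ∃ i, ∀ y ∈ closure X, dist x y = diam X → 0 < ⟪u i, y - x⟫_ℝ) :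
    Split X (k + N) := by
  have hpos : 0 < k + N := by
    by_contra hc
    have hk : k = 0 := by omega
    have hN : N = 0 := by omega
    subst hk hN
    have hK : IsCompact (closure X) := hX.isCompact_closure
    have hne : ¬ ∀ x ∈ closure X, ∀ y ∈ closure X, dist x y ≠ diam X := by
      intro h
      have h1 : diam (closure X) < diam X := by
        refine diam_lt_of_compact hK hD (fun x hx y hy => ?_) h
        have := dist_le_diam_of_mem hX.closure hx hy
        rwa [diam_closure] at this
      rw [diam_closure] at h1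
      exact lt_irrefl _ h1
    push Not at hne
    obtain ⟨x, hx, y, hy, hd⟩ := hne
    rcases H x hx ⟨y, hy, hd⟩ with ⟨j, _⟩ | ⟨i, _⟩
    · exact j.elim0
    · exact i.elim0
  refine master hX hD (fun i => {p : E × E | 0 < ⟪u i, p.2 - p.1⟫_ℝ}) ?_ ?_ T hT ?_ hpos
  · intro i
    exact isOpen_lt continuous_const (continuous_const.inner (continuous_snd.sub continuous_fst))
  · intro i x y h1 h2
    simp only [mem_setOf_eq] at h1 h2
    have : ⟪u i, y - x⟫_ℝ + ⟪u i, x - y⟫_ℝ = 0 := by
      rw [← inner_add_right]; simp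
    linarith
  · exact H

/-- If `x + u` is within `diam X` of the far point `y` of `x`, `u ≠ 0`, then `⟪u, y - x⟫ > 0`. -/
theorem inner_pos_of_dist {x y v : E} {D : ℝ} (hxy : dist x y = D) (hv : v ≠ 0)
    (h : dist (x + v) y ≤ D) : 0 < ⟪v, y - x⟫_ℝ := by
  have h1 : ‖x + v - y‖ ^ 2 ≤ ‖x - y‖ ^ 2 := by
    rw [dist_eq_norm] at hxy h
    rw [hxy]
    exact pow_le_pow_left₀ (norm_nonneg _) h 2
  have h2 : x + v - y = (x - y) + v := by abel
  rw [h2, @norm_add_sq_real] at h1
  have h3 : ⟪x - y, v⟫_ℝ = -⟪v, y - x⟫_ℝ := by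
    rw [real_inner_comm, ← inner_neg_right, neg_sub]
  have h4 : 0 < ‖v‖ ^ 2 := by positivity
  rw [h3] at h1
  linarith

/-- The common form of the hypothesis of the summand theorems: a point `x` of the closure with a far
point lies in a translate `c + Z` all of whose points are within `diam X` of all points of `X`. -/
def Rolls (X Z : Set E) : Prop :=
  ∀ x ∈ closure X, (∃ y ∈ closure X, dist x y = diam X) →
    ∃ c : E, (∃ z ∈ Z, x = c + z) ∧ ∀ z ∈ Z, ∀ y ∈ X, dist (c + z) y ≤ diam X

theorem dist_closure_le {X : Set E} {w : E} {D : ℝ} (h : ∀ y ∈ X, dist w y ≤ D) :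
    ∀ y ∈ closure X, dist w y ≤ D := by
  intro y hy
  have hcl : IsClosed {y : E | dist w y ≤ D} := isClosed_le (continuous_const.dist continuous_id)
    continuous_const
  exact closure_minimal (fun y hy => h y hy) hcl hy

/-- SUMMANDS, polytopes. -/
theorem summand_polytope {X : Set E} (hX : Bornology.IsBounded X) (hD : 0 < diam X) {m : ℕ}
    (z : Fin (m + 1) → E) (hz : ∃ i j, z i ≠ z j) (H : Rolls X (convexHull ℝ (range z))) :
    Split X (m + 1) := by
  have hz' : ∀ i, ∃ j, z j ≠ z i := by
    intro i
    by_contra hc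
    push Not at hc
    obtain ⟨a, b, hab⟩ := hz
    exact hab ((hc a).trans (hc b).symm)
  choose J hJ using hz'
  have h := vectors hX hD (k := m + 1) (N := 0) (fun i => z (J i) - z i) (fun j => j.elim0)
    (fun j => j.elim0) ?_
  · simpa using h
  · intro x hx hfar
    right
    obtain ⟨c, ⟨w, hw, hxw⟩, hc⟩ := H x hx hfar
    -- barycentric coordinates
    obtain ⟨t, ht0, ht1, htw⟩ : ∃ t : Fin (m + 1) → ℝ, (∀ i, 0 ≤ t i) ∧ ∑ i, t i = 1 ∧
        ∑ i, t i • z i = w := by
      rw [convexHull_range_eq_exists_affineCombination] at hw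
      obtain ⟨s, t, h0, h1, h2⟩ := hw
      rw [Finset.affineCombination_eq_linear_combination s z t h1] at h2
      refine ⟨fun i => if i ∈ s then t i else 0, fun i => ?_, ?_, ?_⟩
      · by_cases hi : i ∈ s
        · simpa [hi] using h0 i hi
        · simp [hi]
      · rw [Finset.sum_ite_mem, Finset.univ_inter]; exact h1
      · simp only [ite_smul, zero_smul]
        rw [Finset.sum_ite_mem, Finset.univ_inter]; exact h2
    set τ : ℝ := 1 / (m + 1) with hτ
    have hτ0 : 0 < τ := by rw [hτ]; positivity
    obtain ⟨i, hi⟩ : ∃ i, τ ≤ t i := by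
      by_contra hc
      push Not at hc
      have h1 : ∑ i, t i < ∑ _i : Fin (m + 1), τ :=
        Finset.sum_lt_sum_of_nonempty Finset.univ_nonempty (fun i _ => hc i)
      rw [ht1, Finset.sum_const, Finset.card_univ, Fintype.card_fin, nsmul_eq_mul, hτ] at h1
      push_cast at h1
      rw [mul_one_div_cancel (by positivity : ((m : ℝ) + 1) ≠ 0)] at h1
      exact lt_irrefl _ h1
    refine ⟨i, fun y hy hd => ?_⟩
    -- x + τ (z_j - z_i) = c + w'
    have hmem : w + τ • (z (J i) - z i) ∈ convexHull ℝ (range z) := by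
      have hji : J i ≠ i := fun h => hJ i (by rw [h])
      have hrep : w + τ • (z (J i) - z i)
          = ∑ l, (t l + (if l = J i then τ else 0) - (if l = i then τ else 0)) • z l := by
        simp only [sub_smul, add_smul, ite_smul, zero_smul, Finset.sum_sub_distrib,
          Finset.sum_add_distrib, Finset.sum_ite_eq', Finset.mem_univ, if_true]
        rw [htw, smul_sub]; abel
      rw [hrep]
      refine (convex_convexHull ℝ _).sum_mem ?_ ?_ ?_
      · intro l _
        by_cases h1 : l = i
        · subst h1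
          simp only [if_true]
          rw [if_neg (Ne.symm hji)]
          linarith
        · rw [if_neg h1]
          have := ht0 l
          split_ifs <;> linarith
      · simp only [Finset.sum_sub_distrib, Finset.sum_add_distrib, Finset.sum_ite_eq',
          Finset.mem_univ, if_true]
        rw [ht1]; ring
      · intro l _
        exact subset_convexHull ℝ _ (mem_range_self l)
    have hd2 : dist (x + τ • (z (J i) - z i)) y ≤ diam X := by
      have h1 := dist_closure_le (hc _ hmem) y hy
      rwa [← add_assoc, ← hxw] at h1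
    have h2 := inner_pos_of_dist hd (smul_ne_zero hτ0.ne' (sub_ne_zero.2 (hJ i))) hd2
    rw [inner_smul_left] at h2
    exact (mul_pos_iff_of_pos_left (by simpa using hτ0)).1 h2

end Vale.Agent.P052.H632
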