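import Vale.Agent.P052.R2.H632.Simplex

open Metric Set
open scoped InnerProductSpace

namespace Vale.Agent.P052.H632

variable {E : Type*} [NormedAddCommGroup E] [InnerProductSpace ℝ E] [FiniteDimensional ℝ E]

/-- It is enough to cover the points with a far point. -/
theorem cover_far {X : Set E} (hX : Bornology.IsBounded X) (hD : 0 < diam X) {k : ℕ}
    (T : Fin k → Set E) (hT : ∀ j, Bornology.IsBounded (T j) ∧ diam (T j) < diam X)
    (hcov : ∀ x ∈ closure X, (∃ y ∈ closure X, dist x y = diam X) → ∃ j, x ∈ T j) :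
    Split X k := by
  have hk : 0 < 0 + k := by
    rcases Nat.eq_zero_or_pos k with rfl | h
    · exfalso
      -- there is a far pair
      have hK : IsCompact (closure X) := hX.isCompact_closure
      have hne : ¬ ∀ x ∈ closure X, ∀ y ∈ closure X, dist x y ≠ diam X := by
        intro h
        have h1 : diam (closure X) < diam X := by
          refine diam_lt_of_compact hK hD (fun x hx y hy => ?_) h
          have := dist_le_diam_of_mem hX.closure hx hy
          rwa [diam_closure] at this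
        rw [diam_closure] at h1
        exact lt_irrefl _ h1
      push Not at hne
      obtain ⟨x, hx, y, hy, hd⟩ := hne
      obtain ⟨j, _⟩ := hcov x hx ⟨y, hy, hd⟩
      exact j.elim0
    · omega
  have h := master hX hD (k := 0) (N := k) (fun i => i.elim0) (fun i => i.elim0)
    (fun i => i.elim0) T hT (fun x hx hfar => Or.inl (hcov x hx hfar)) hk
  rwa [zero_add] at h

/-- The set of points with a far point. -/
def farSet (X : Set E) : Set E := {x | x ∈ closure X ∧ ∃ y ∈ closure X, dist x y = diam X}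

theorem isCompact_farSet {X : Set E} (hX : Bornology.IsBounded X) : IsCompact (farSet X) := by
  have hK : IsCompact (closure X) := hX.isCompact_closure
  refine hK.of_isClosed_subset ?_ (fun x hx => hx.1)
  have h := isClosed_bad hX (W := (∅ : Set (E × E))) isOpen_empty
  convert h using 1
  ext x
  simp only [farSet, mem_setOf_eq, mem_empty_iff_false, not_false_eq_true, and_true]
  constructor
  · rintro ⟨h1, y, h2, h3⟩
    exact ⟨y, h2, h1, h3⟩
  · rintro ⟨y, h2, h1, h3⟩
    exact ⟨h1, y, h2, h3⟩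

/-- Closed cover principle with extra sets of small diameter. -/
theorem split_of_closed_cover {X : Set E} (hX : Bornology.IsBounded X) (hD : 0 < diam X)
    {k N : ℕ} (C : Fin k → Set E) (T : Fin N → Set E)
    (hT : ∀ j, Bornology.IsBounded (T j) ∧ diam (T j) < diam X)
    (hC : ∀ i, ∀ F : Set E, IsClosed F → (∀ j, Disjoint F (T j)) → IsClosed (F ∩ farSet X ∩ C i))
    (hcov : ∀ x ∈ farSet X, (∃ i, x ∈ C i) ∨ ∃ j, x ∈ T j)
    (hno : ∀ i, ∀ x ∈ farSet X ∩ C i, ∀ y ∈ farSet X ∩ C i, dist x y ≠ diam X) :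
    Split X (k + N) := by
  have hM : IsCompact (farSet X) := isCompact_farSet hX
  have hdist : ∀ x ∈ closure X, ∀ y ∈ closure X, dist x y ≤ diam X := by
    intro x hx y hy
    have := dist_le_diam_of_mem hX.closure hx hy
    rwa [diam_closure] at this
  -- open enlargements with diameter < D
  have hV : ∀ j, ∃ V : Set E, IsOpen V ∧ T j ⊆ V ∧ Bornology.IsBounded V ∧ diam V < diam X := by
    intro j
    set δ := (diam X - diam (T j)) / 4 with hδ
    have hδ0 : 0 < δ := by rw [hδ]; linarith [(hT j).2]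
    refine ⟨thickening δ (T j), isOpen_thickening, self_subset_thickening hδ0 _,
      (hT j).1.thickening, ?_⟩
    have h1 : diam (thickening δ (T j)) ≤ diam (T j) + 2 * δ := diam_thickening_le _ hδ0.le
    have : 4 * δ = diam X - diam (T j) := by rw [hδ]; ring
    linarith
  choose V hV1 hV2 hV3 hV4 using hV
  let F : Set E := (⋃ j, V j)ᶜ
  have hF : IsClosed F := (isOpen_iUnion hV1).isClosed_compl
  have hFT : ∀ j, Disjoint F (T j) := by
    intro j
    rw [Set.disjoint_left]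
    intro x hx hxT
    exact hx (mem_iUnion.2 ⟨j, hV2 j hxT⟩)
  refine cover_far hX hD (Fin.addCases (fun i => F ∩ farSet X ∩ C i) V) ?_ ?_
  · intro i
    refine Fin.addCases (fun i => ?_) (fun j => ?_) i
    · simp only [Fin.addCases_left]
      have hc : IsCompact (F ∩ farSet X ∩ C i) :=
        hM.of_isClosed_subset (hC i F hF hFT) (fun x hx => hx.1.2)
      exact ⟨hc.isBounded, diam_lt_of_compact hc hD
        (fun x hx y hy => hdist x hx.1.2.1 y hy.1.2.1)
        (fun x hx y hy => hno i x ⟨hx.1.2, hx.2⟩ y ⟨hy.1.2, hy.2⟩)⟩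
    · simp only [Fin.addCases_right]
      exact ⟨hV3 j, hV4 j⟩
  · intro x hx hfar
    by_cases hxF : x ∈ F
    · rcases hcov x ⟨hx, hfar⟩ with ⟨i, hi⟩ | ⟨j, hj⟩
      · refine ⟨Fin.castAdd N i, ?_⟩
        simp only [Fin.addCases_left]
        exact ⟨⟨hxF, hx, hfar⟩, hi⟩
      · exact absurd hj (Set.disjoint_left.1 (hFT j) hxF)
    · have : x ∈ ⋃ j, V j := by
        by_contra hc
        exact hxF hc
      obtain ⟨j, hj⟩ := mem_iUnion.1 this
      refine ⟨Fin.natAdd k j, ?_⟩
      simp only [Fin.addCases_right]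
      exact hj

/-- The bound for the cells of the regular simplex with constant `κ`. -/
def CellB (a : ℕ) (κ : ℝ) : Prop :=
  ∀ x y : EuclideanSpace ℝ (Fin (a + 1)), ∑ i, x i = 0 → ∑ i, y i = 0 →
    ∀ i, (∀ j, x j ≤ x i) → (∀ j, y j ≤ y i) → -(2 * ⟪x, y⟫_ℝ) ≤ κ * (‖x‖ ^ 2 + ‖y‖ ^ 2)

/-- SYMMETRY WITHOUT MIRRORS. -/
theorem symmetric {X : Set E} (hX : Bornology.IsBounded X) (hD : 0 < diam X)
    (V : Submodule ℝ E) {a : ℕ} (ha : Module.finrank ℝ V = a) {κ : ℝ} (hκ : CellB a κ) (p0 : E)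
    (hG : ∀ v ∈ V, ∀ w ∈ V, ‖v‖ = 1 → ‖w‖ = 1 → ∃ g : E →ₗᵢ[ℝ] E, (∀ q ∈ Vᗮ, g q = q) ∧
      (∀ x ∈ X, p0 + g (x - p0) ∈ X) ∧ κ < ⟪g v, w⟫_ℝ)
    {N : ℕ} (T : Fin N → Set E)
    (hT : ∀ j, Bornology.IsBounded (T j) ∧ diam (T j) < diam X)
    (hcov : ∀ x ∈ closure X, (∃ y ∈ closure X, dist x y = diam X) → x - p0 ∈ Vᗮ →
      ∃ j, x ∈ T j) :
    Split X (a + 1 + N) := by
  obtain ⟨L, hL⟩ := exists_simplex_coords V ha
  -- the projection
  let P : E → V := fun x => V.orthogonalProjectionOnto (x - p0)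
  have hPc : Continuous P := by
    exact V.orthogonalProjectionOnto.continuous.comp (continuous_id.sub continuous_const)
  have hP0 : ∀ x, P x = 0 ↔ x - p0 ∈ Vᗮ := by
    intro x
    exact Submodule.orthogonalProjectionOnto_eq_zero_iff
  let C : Fin (a + 1) → Set E := fun i => {x | P x ≠ 0 ∧ ∀ j, L (P x) j ≤ L (P x) i}
  refine split_of_closed_cover hX hD C T hT ?_ ?_ ?_
  · intro i F hF hFT
    have : F ∩ farSet X ∩ C i = F ∩ farSet X ∩ {x | ∀ j, L (P x) j ≤ L (P x) i} := by
      ext x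
      constructor
      · rintro ⟨h1, _, h2⟩
        exact ⟨h1, h2⟩
      · rintro ⟨h1, h2⟩
        refine ⟨h1, ?_, h2⟩
        intro h0
        obtain ⟨j, hj⟩ := hcov x h1.2.1 h1.2.2 ((hP0 x).1 h0)
        exact Set.disjoint_left.1 (hFT j) h1.1 hj
    rw [this]
    refine (hF.inter (isCompact_farSet hX).isClosed).inter ?_
    have : {x | ∀ j, L (P x) j ≤ L (P x) i} = ⋂ j, {x | L (P x) j ≤ L (P x) i} := by
      ext x; simp
    rw [this]
    refine isClosed_iInter fun j => isClosed_le ?_ ?_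
    · exact (EuclideanSpace.proj (𝕜 := ℝ) j).continuous.comp (L.continuous.comp hPc)
    · exact (EuclideanSpace.proj (𝕜 := ℝ) i).continuous.comp (L.continuous.comp hPc)
  · intro x hx
    by_cases h0 : P x = 0
    · right
      exact hcov x hx.1 hx.2 ((hP0 x).1 h0)
    · left
      obtain ⟨i, _, hi⟩ := Finset.exists_max_image Finset.univ (fun j => L (P x) j)
        Finset.univ_nonempty
      exact ⟨i, h0, fun j => hi j (Finset.mem_univ j)⟩
  · rintro i x ⟨⟨hx, _⟩, hx0, hxi⟩ y ⟨⟨hy, _⟩, hy0, hyi⟩ hd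
    -- the cell lemma for the two normal components
    set p : V := P x with hp
    set p' : V := P y with hp'
    have hnp : 0 < ‖p‖ := norm_pos_iff.2 hx0
    have hnp' : 0 < ‖p'‖ := norm_pos_iff.2 hy0
    -- unit vectors
    let v : V := (‖p‖)⁻¹ • p
    let w : V := -((‖p'‖)⁻¹ • p')
    have hv1 : ‖v‖ = 1 := by
      simp only [v, norm_smul, norm_inv, norm_norm]
      exact inv_mul_cancel₀ hnp.ne'
    have hw1 : ‖w‖ = 1 := by
      simp only [w, norm_neg, norm_smul, norm_inv, norm_norm]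
      exact inv_mul_cancel₀ hnp'.ne'
    obtain ⟨g, hg1, hg2, hg3⟩ := hG v v.2 w w.2 (by simpa using hv1) (by simpa using hw1)
    -- g maps closure X into closure X
    have hgX : p0 + g (x - p0) ∈ closure X := by
      have hcont : Continuous fun z : E => p0 + g (z - p0) :=
        continuous_const.add (g.continuous.comp (continuous_id.sub continuous_const))
      exact map_mem_closure (f := fun z : E => p0 + g (z - p0)) hcont hx hg2
    have hdist : dist (p0 + g (x - p0)) y ≤ dist x y := by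
      rw [hd]
      have := dist_le_diam_of_mem hX.closure hgX hy
      rwa [diam_closure] at this
    -- decompose
    have hdec : ∀ z : E, ∃ q ∈ Vᗮ, z - p0 = (P z : E) + q := by
      intro z
      refine ⟨(z - p0) - V.starProjection (z - p0), ?_, ?_⟩
      · exact Submodule.sub_starProjection_mem_orthogonal (K := V) (z - p0)
      · simp only [P, Submodule.starProjection_apply]
        abel
    obtain ⟨q, hq, hxq⟩ := hdec x
    obtain ⟨q', hq', hyq⟩ := hdec y
    -- inner products of g p with orthogonal vectors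
    have hgV : ∀ s ∈ V, ∀ t ∈ Vᗮ, ⟪g s, t⟫_ℝ = 0 := by
      intro s hs t ht
      have : ⟪g s, g t⟫_ℝ = ⟪s, t⟫_ℝ := g.inner_map_map s t
      rw [hg1 t ht] at this
      rw [this]
      exact (Submodule.mem_orthogonal V t).1 ht s hs
    have hVo : ∀ s ∈ V, ∀ t ∈ Vᗮ, ⟪s, t⟫_ℝ = 0 := fun s hs t ht =>
      (Submodule.mem_orthogonal V t).1 ht s hs
    have e1 : dist x y ^ 2 = ‖(p : E)‖ ^ 2 + ‖(p' : E)‖ ^ 2 - 2 * ⟪(p : E), (p' : E)⟫_ℝ
        + ‖q - q'‖ ^ 2 := by
      have : x - y = ((p : E) - p') + (q - q') := by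
        have : x - y = (x - p0) - (y - p0) := by abel
        rw [this, hxq, hyq]; abel
      rw [dist_eq_norm, this, @norm_add_sq_real, @norm_sub_sq_real E _ _ (p : E)]
      have : ⟪(p : E) - p', q - q'⟫_ℝ = 0 :=
        hVo _ (V.sub_mem p.2 p'.2) _ (Submodule.sub_mem _ hq hq')
      rw [this]; ring
    have e2 : dist (p0 + g (x - p0)) y ^ 2 = ‖(p : E)‖ ^ 2 + ‖(p' : E)‖ ^ 2
        - 2 * ⟪g (p : E), (p' : E)⟫_ℝ + ‖q - q'‖ ^ 2 := by
      have : p0 + g (x - p0) - y = (g (p : E) - p') + (q - q') := by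
        have h : p0 + g (x - p0) - y = g (x - p0) - (y - p0) := by abel
        rw [h, hxq, hyq, map_add, hg1 q hq]; abel
      rw [dist_eq_norm, this, @norm_add_sq_real, @norm_sub_sq_real E _ _ (g (p : E)),
        g.norm_map]
      have : ⟪g (p : E) - p', q - q'⟫_ℝ = 0 := by
        rw [inner_sub_left, hgV _ p.2 _ (Submodule.sub_mem _ hq hq'),
          hVo _ p'.2 _ (Submodule.sub_mem _ hq hq')]
        ring
      rw [this]; ring
    have e3 : ⟪(p : E), (p' : E)⟫_ℝ ≤ ⟪g (p : E), (p' : E)⟫_ℝ := by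
      have h1 : dist (p0 + g (x - p0)) y ^ 2 ≤ dist x y ^ 2 := by
        have := dist_nonneg (x := p0 + g (x - p0)) (y := y)
        exact pow_le_pow_left₀ this hdist 2
      rw [e1, e2] at h1
      linarith
    -- <g v, w> in terms of <g p, p'>
    have e4 : ⟪g (v : E), (w : E)⟫_ℝ = -((‖p‖)⁻¹ * (‖p'‖)⁻¹ * ⟪g (p : E), (p' : E)⟫_ℝ) := by
      simp only [v, w, Submodule.coe_smul, Submodule.coe_neg, map_smul, inner_neg_right,
        inner_smul_left, inner_smul_right]
      simp
      ring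
    rw [e4] at hg3
    have e5 : ⟪g (p : E), (p' : E)⟫_ℝ < -κ * (‖p‖ * ‖p'‖) := by
      have hpp : 0 < ‖p‖ * ‖p'‖ := mul_pos hnp hnp'
      have h1 : κ * (‖p‖ * ‖p'‖)
          < -((‖p‖)⁻¹ * (‖p'‖)⁻¹ * ⟪g (p : E), (p' : E)⟫_ℝ) * (‖p‖ * ‖p'‖) :=
        mul_lt_mul_of_pos_right hg3 hpp
      have h2 : -((‖p‖)⁻¹ * (‖p'‖)⁻¹ * ⟪g (p : E), (p' : E)⟫_ℝ) * (‖p‖ * ‖p'‖)
          = -⟪g (p : E), (p' : E)⟫_ℝ := by
        field_simp
      rw [h2] at h1
      linarith
    have e6 : ⟪(p : E), (p' : E)⟫_ℝ < -κ * (‖p‖ * ‖p'‖) := e3.trans_lt e5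
    -- the cell lemma applied to the normalised vectors
    have hcell := hκ (L (‖p'‖ • p)) (L (‖p‖ • p')) (hL _) (hL _) i
      (by
        intro j
        simp only [map_smul, PiLp.smul_apply, smul_eq_mul]
        exact mul_le_mul_of_nonneg_left (hxi j) hnp'.le)
      (by
        intro j
        simp only [map_smul, PiLp.smul_apply, smul_eq_mul]
        exact mul_le_mul_of_nonneg_left (hyi j) hnp.le)
    rw [L.inner_map_map, L.norm_map, L.norm_map, norm_smul, norm_smul, norm_norm, norm_norm,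
      inner_smul_left, inner_smul_right] at hcell
    have e7 : ⟪p, p'⟫_ℝ = ⟪(p : E), (p' : E)⟫_ℝ := rfl
    rw [e7] at hcell
    simp only [conj_trivial] at hcell
    set s := ‖p‖ * ‖p'‖ with hs
    have hs0 : 0 < s := mul_pos hnp hnp'
    have hcell2 : -(2 * (s * ⟪(p : E), (p' : E)⟫_ℝ)) ≤ κ * (2 * s ^ 2) := by
      have h1 : ‖p'‖ * (‖p‖ * ⟪(p : E), (p' : E)⟫_ℝ) = s * ⟪(p : E), (p' : E)⟫_ℝ := by
        rw [hs]; ring
      have h2 : (‖p'‖ * ‖p‖) ^ 2 + (‖p‖ * ‖p'‖) ^ 2 = 2 * s ^ 2 := by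
        rw [hs]; ring
      rw [h1, h2] at hcell
      exact hcell
    nlinarith [mul_lt_mul_of_pos_left e6 hs0]

end Vale.Agent.P052.H632
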